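import Vale.Agent.P017.R2.H985.Defs

/-!
# P017, module M2a: number of good tuples of patterns
-/

open Finset

namespace Vale.Agent.P017.R2.H916

open Vale.Agent.P017.R2.H985

section Linear

variable {ι : Type} [Fintype ι] [DecidableEq ι]

theorem exists_one_one (x r : ι → ZMod 2) (hx : x ≠ 0) (hr : r ≠ 0) :
    ∃ u : ι → ZMod 2, dotProduct u x = 1 ∧ dotProduct u r = 1 := by
  obtain ⟨q, hq⟩ : ∃ q, x q ≠ 0 := Function.ne_iff.mp hx
  obtain ⟨q', hq'⟩ : ∃ q, r q ≠ 0 := Function.ne_iff.mp hr
  have h2 : ∀ a : ZMod 2, a ≠ 0 → a = 1 := by decide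
  have h3 : ∀ a : ZMod 2, a ≠ 1 → a = 0 := by decide
  have e1 := h2 _ hq
  have e2 := h2 _ hq'
  by_cases h : r q = 1
  · exact ⟨Pi.single q 1, by simp [e1], by simp [h]⟩
  by_cases h' : x q' = 1
  · exact ⟨Pi.single q' 1, by simp [h'], by simp [e2]⟩
  · refine ⟨Pi.single q 1 + Pi.single q' 1, ?_, ?_⟩
    · rw [add_dotProduct]; simp [e1, h3 _ h']
    · rw [add_dotProduct]; simp [e2, h3 _ h]

theorem card_le_four (x r : ι → ZMod 2) (hx : x ≠ 0) (hr : r ≠ 0) :
    Fintype.card (ι → ZMod 2) ≤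
      4 * (univ.filter fun u : ι → ZMod 2 => dotProduct u x = 1 ∧ dotProduct u r = 1).card := by
  let f : (ι → ZMod 2) →+ (ZMod 2 × ZMod 2) :=
    { toFun := fun u => (dotProduct u x, dotProduct u r)
      map_zero' := by simp
      map_add' := by intro u v; simp [add_dotProduct] }
  obtain ⟨u0, h1, h2⟩ := exists_one_one x r hx hr
  have hmem : ((1 : ZMod 2), (1 : ZMod 2)) ∈ Set.range f := ⟨u0, by simp [f, h1, h2]⟩
  have hS : (univ.filter fun u : ι → ZMod 2 => dotProduct u x = 1 ∧ dotProduct u r = 1) =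
      univ.filter fun u : ι → ZMod 2 => f u = (1, 1) := by
    ext u
    simp [f, Prod.ext_iff]
  rw [hS]
  have key : Fintype.card (ι → ZMod 2) =
      ∑ y : ZMod 2 × ZMod 2, (univ.filter fun u => f u = y).card := by
    rw [← Finset.card_univ, Finset.card_eq_sum_card_fiberwise (f := f) (t := univ)]
    intro u _
    simp
  rw [key]
  have hle : ∀ y : ZMod 2 × ZMod 2, (univ.filter fun u => f u = y).card ≤
      (univ.filter fun u => f u = (1, 1)).card := by
    intro y
    by_cases hy : y ∈ Set.range f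
    · exact (AddMonoidHom.card_fiber_eq_of_mem_range f hy hmem).le
    · have : (univ.filter fun u => f u = y) = ∅ := by
        apply Finset.filter_false_of_mem
        intro u _ hu
        exact hy ⟨u, hu⟩
      rw [this]
      simp
  calc ∑ y : ZMod 2 × ZMod 2, (univ.filter fun u => f u = y).card
      ≤ ∑ _y : ZMod 2 × ZMod 2, (univ.filter fun u => f u = (1, 1)).card :=
        Finset.sum_le_sum fun y _ => hle y
    _ = 4 * (univ.filter fun u => f u = (1, 1)).card := by
        rw [Finset.sum_const, Finset.card_univ, Fintype.card_prod, ZMod.card, smul_eq_mul]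

/-- the orthogonal of a vector -/
def perp (u : ι → ZMod 2) : Submodule (ZMod 2) (ι → ZMod 2) where
  carrier := {x | dotProduct u x = 0}
  add_mem' := by
    intro a b ha hb
    simp only [Set.mem_ofPred_eq] at *
    rw [dotProduct_add, ha, hb, add_zero]
  zero_mem' := by simp
  smul_mem' := by
    intro c x hx
    simp only [Set.mem_ofPred_eq] at *
    rw [dotProduct_smul, hx, smul_zero]

omit [DecidableEq ι] in
theorem mem_perp {u x : ι → ZMod 2} : x ∈ perp u ↔ dotProduct u x = 0 := Iff.rfl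

/-- the vectors `φ i` separate `L` -/
def Sep {s : ℕ} (L : Submodule (ZMod 2) (ι → ZMod 2)) (φ : Fin s → ι → ZMod 2) : Prop :=
  ∀ x ∈ L, (∀ i, dotProduct (φ i) x = 0) → x = 0

omit [DecidableEq ι] in
theorem Sep.cons {s : ℕ} {L : Submodule (ZMod 2) (ι → ZMod 2)} {u : ι → ZMod 2}
    {φ : Fin s → ι → ZMod 2} (h : Sep (L ⊓ perp u) φ) :
    Sep L (Fin.cons u φ : Fin (s + 1) → ι → ZMod 2) := by
  intro x hx h0
  refine h x ⟨hx, ?_⟩ fun i => ?_
  · have := h0 0
    rwa [Fin.cons_zero] at this
  · have := h0 i.succ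
    rwa [Fin.cons_succ] at this

theorem finrank_inf_perp {s : ℕ} {L : Submodule (ZMod 2) (ι → ZMod 2)} {u x : ι → ZMod 2}
    (hL : Module.finrank (ZMod 2) L ≤ s + 1) (hx : L ≠ ⊥ → x ∈ L) (hu : dotProduct u x = 1) :
    Module.finrank (ZMod 2) (L ⊓ perp u : Submodule (ZMod 2) (ι → ZMod 2)) ≤ s := by
  by_cases h : L = ⊥
  · rw [h, bot_inf_eq, finrank_bot]
    exact Nat.zero_le _
  · have hlt : L ⊓ perp u < L := by
      refine lt_of_le_of_ne inf_le_left fun he => ?_
      have h1 : x ∈ L ⊓ perp u := by rw [he]; exact hx h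
      have h2 := mem_perp.mp h1.2
      rw [hu] at h2
      exact one_ne_zero h2
    have := Submodule.finrank_lt_finrank_of_lt hlt
    omega

open Classical in
theorem count_sep (s : ℕ) : ∀ L R : Submodule (ZMod 2) (ι → ZMod 2),
    Module.finrank (ZMod 2) L ≤ s → Module.finrank (ZMod 2) R ≤ s →
    Fintype.card (ι → ZMod 2) ^ s ≤
      4 ^ s * (univ.filter fun φ : Fin s → ι → ZMod 2 => Sep L φ ∧ Sep R φ).card := by
  induction s with
  | zero =>
    intro L R hL hR
    have hL0 : L = ⊥ := by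
      rw [← Submodule.finrank_eq_zero]; omega
    have hR0 : R = ⊥ := by
      rw [← Submodule.finrank_eq_zero]; omega
    subst hL0 hR0
    have hall : ∀ φ : Fin 0 → ι → ZMod 2, Sep (⊥ : Submodule (ZMod 2) (ι → ZMod 2)) φ :=
      fun φ x hx _ => by simpa using hx
    rw [Finset.filter_true_of_mem (fun φ _ => ⟨hall φ, hall φ⟩)]
    simp
  | succ s ih =>
    intro L R hL hR
    by_cases hLR : L = ⊥ ∧ R = ⊥
    · obtain ⟨h1, h2⟩ := hLR
      subst h1 h2
      have hall : ∀ φ : Fin (s + 1) → ι → ZMod 2,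
          Sep (⊥ : Submodule (ZMod 2) (ι → ZMod 2)) φ :=
        fun φ x hx _ => by simpa using hx
      rw [Finset.filter_true_of_mem (fun φ _ => ⟨hall φ, hall φ⟩), Finset.card_univ]
      have : Fintype.card (Fin (s + 1) → ι → ZMod 2) =
          Fintype.card (ι → ZMod 2) ^ (s + 1) := by
        rw [Fintype.card_fun, Fintype.card_fin]
      rw [this]
      exact Nat.le_mul_of_pos_left _ (by positivity)
    · have hxr : ∃ x r : ι → ZMod 2, x ≠ 0 ∧ r ≠ 0 ∧ (L ≠ ⊥ → x ∈ L) ∧ (R ≠ ⊥ → r ∈ R) := by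
        by_cases h1 : L = ⊥
        · have h2 : R ≠ ⊥ := fun h => hLR ⟨h1, h⟩
          obtain ⟨r, hr, hr0⟩ := Submodule.exists_mem_ne_zero_of_ne_bot h2
          exact ⟨r, r, hr0, hr0, fun h => absurd h1 h, fun _ => hr⟩
        · obtain ⟨x, hx, hx0⟩ := Submodule.exists_mem_ne_zero_of_ne_bot h1
          by_cases h2 : R = ⊥
          · exact ⟨x, x, hx0, hx0, fun _ => hx, fun h => absurd h2 h⟩
          · obtain ⟨r, hr, hr0⟩ := Submodule.exists_mem_ne_zero_of_ne_bot h2
            exact ⟨x, r, hx0, hr0, fun _ => hx, fun _ => hr⟩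
      obtain ⟨x, r, hx0, hr0, hx, hr⟩ := hxr
      set S := univ.filter fun u : ι → ZMod 2 => dotProduct u x = 1 ∧ dotProduct u r = 1 with hSdef
      have hS : Fintype.card (ι → ZMod 2) ≤ 4 * S.card := by
        have := card_le_four x r hx0 hr0
        convert this using 3
      let F : (ι → ZMod 2) → Finset (Fin s → ι → ZMod 2) := fun u =>
        univ.filter fun φ : Fin s → ι → ZMod 2 => Sep (L ⊓ perp u) φ ∧ Sep (R ⊓ perp u) φ
      have hF : ∀ u ∈ S, Fintype.card (ι → ZMod 2) ^ s ≤ 4 ^ s * (F u).card := by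
        intro u hu
        rw [hSdef, Finset.mem_filter] at hu
        exact ih _ _ (finrank_inf_perp hL hx hu.2.1) (finrank_inf_perp hR hr hu.2.2)
      have hinj : (S.sigma F).card ≤
          (univ.filter fun φ : Fin (s + 1) → ι → ZMod 2 => Sep L φ ∧ Sep R φ).card := by
        apply Finset.card_le_card_of_injOn
          (fun a : (Σ _ : ι → ZMod 2, Fin s → ι → ZMod 2) =>
            (Fin.cons a.1 a.2 : Fin (s + 1) → ι → ZMod 2))
        · intro a ha
          simp only [Finset.coe_sigma, Set.mem_sigma_iff, Finset.mem_coe] at ha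
          have h2 := ha.2
          rw [Finset.mem_filter] at h2
          simp only [Finset.coe_filter, Finset.mem_univ, true_and, Set.mem_ofPred_eq]
          exact ⟨h2.2.1.cons, h2.2.2.cons⟩
        · intro a _ b _ hab
          have := Fin.cons_injective2 hab
          obtain ⟨a1, a2⟩ := a
          obtain ⟨b1, b2⟩ := b
          simp only at this
          obtain ⟨rfl, rfl⟩ := this
          rfl
      rw [Finset.card_sigma] at hinj
      calc Fintype.card (ι → ZMod 2) ^ (s + 1)
          = Fintype.card (ι → ZMod 2) * Fintype.card (ι → ZMod 2) ^ s := by ring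
        _ ≤ (4 * S.card) * Fintype.card (ι → ZMod 2) ^ s := Nat.mul_le_mul_right _ hS
        _ = 4 * ∑ _u ∈ S, Fintype.card (ι → ZMod 2) ^ s := by
            rw [Finset.sum_const, smul_eq_mul]; ring
        _ ≤ 4 * ∑ u ∈ S, 4 ^ s * (F u).card :=
            Nat.mul_le_mul_left _ (Finset.sum_le_sum hF)
        _ = 4 ^ (s + 1) * ∑ u ∈ S, (F u).card := by
            rw [← Finset.mul_sum]; ring
        _ ≤ _ := Nat.mul_le_mul_left _ hinj

end Linear

/-- M2a -/
theorem stmtGood : StmtGood := by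
  classical
  intro m w
  have hL : Module.finrank (ZMod 2) (LinearMap.ker (Matrix.mulVecLin (Mat m w))) ≤ cork m w :=
    le_rfl
  have hR : Module.finrank (ZMod 2) (LinearMap.ker (Matrix.mulVecLin (Mat m w).transpose)) ≤
      cork m w := by
    have h1 := LinearMap.finrank_range_add_finrank_ker (Matrix.mulVecLin (Mat m w))
    have h2 := LinearMap.finrank_range_add_finrank_ker (Matrix.mulVecLin (Mat m w).transpose)
    have h3 : Module.finrank (ZMod 2) (LinearMap.range (Matrix.mulVecLin (Mat m w).transpose)) =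
        Module.finrank (ZMod 2) (LinearMap.range (Matrix.mulVecLin (Mat m w))) :=
      Matrix.rank_transpose (Mat m w)
    rw [h3] at h2
    unfold cork
    omega
  have := count_sep (cork m w) _ _ hL hR
  refine this.trans (Nat.mul_le_mul_left _ ?_)
  apply Finset.card_le_card
  intro φ hφ
  rw [Finset.mem_filter] at hφ ⊢
  refine ⟨Finset.mem_univ _, rfl, fun x hx => hφ.2.1 x ?_, fun r hr => hφ.2.2 r ?_⟩
  · rw [LinearMap.mem_ker, Matrix.mulVecLin_apply]
    exact hx
  · rw [LinearMap.mem_ker, Matrix.mulVecLin_apply, Matrix.mulVec_transpose]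
    exact hr

end Vale.Agent.P017.R2.H916
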