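import Vale.Agent.P017.R2.H985.Defs

/-!
# P017, module M2b: mean of `2 ^ corank` over the diagonal perturbations
-/

open Finset

namespace Vale.Agent.P017.R2.H916

open Vale.Agent.P017.R2.H985

/-- sign of an element of `F_2` -/
def sgn (a : ZMod 2) : ℤ := if a = 0 then 1 else -1

theorem sgn_add (a b : ZMod 2) : sgn (a + b) = sgn a * sgn b := by
  revert a b; decide

theorem sgn_sum {ι : Type} (s : Finset ι) (f : ι → ZMod 2) :
    sgn (∑ i ∈ s, f i) = ∏ i ∈ s, sgn (f i) := by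
  classical
  induction s using Finset.induction_on with
  | empty => simp [sgn]
  | insert a s ha ih => rw [Finset.sum_insert ha, Finset.prod_insert ha, sgn_add, ih]

theorem pf_prime {m : ℕ} (q : PF m) : (q : ℕ).Prime := Nat.prime_of_mem_primeFactors q.2

theorem sgn_bit {m : ℕ} {q q' : PF m} (h : q' ≠ q) :
    sgn (bit ((q' : ℕ) : ℤ) (q : ℕ)) = jacobiSym ((q' : ℕ) : ℤ) (q : ℕ) := by
  have hne : (q' : ℕ) ≠ (q : ℕ) := fun h' => h (Subtype.ext h')
  have hc : Nat.Coprime (q' : ℕ) (q : ℕ) :=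
    (Nat.coprime_primes (pf_prime q') (pf_prime q)).mpr hne
  have hg : Int.gcd ((q' : ℕ) : ℤ) ((q : ℕ) : ℤ) = 1 := by
    rw [Int.gcd_natCast_natCast]; exact hc
  rcases jacobiSym.eq_one_or_neg_one hg with h1 | h1
  · simp [bit, sgn, h1]
  · simp [bit, sgn, h1]

/-- the divisor with indicator `x` -/
def bx (m : ℕ) (x : Pat m) : ℕ := ∏ q : PF m, if x q = 1 then (q : ℕ) else 1

/-- the complementary divisor -/
def bx' (m : ℕ) (x : Pat m) : ℕ := ∏ q : PF m, if x q = 1 then 1 else (q : ℕ)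

theorem dvd_bx {m : ℕ} (x : Pat m) (q : PF m) : (q : ℕ) ∣ bx m x ↔ x q = 1 := by
  unfold bx
  rw [Prime.dvd_finsetProd_iff (pf_prime q).prime]
  constructor
  · rintro ⟨q', _, h⟩
    by_cases h1 : x q' = 1
    · rw [if_pos h1, Nat.prime_dvd_prime_iff_eq (pf_prime q) (pf_prime q')] at h
      rw [Subtype.ext h]
      exact h1
    · rw [if_neg h1] at h
      exact absurd (Nat.dvd_one.mp h) (pf_prime q).one_lt.ne'
  · intro h
    exact ⟨q, Finset.mem_univ _, by rw [if_pos h]⟩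

theorem dvd_bx' {m : ℕ} (x : Pat m) (q : PF m) : (q : ℕ) ∣ bx' m x ↔ ¬ x q = 1 := by
  unfold bx'
  rw [Prime.dvd_finsetProd_iff (pf_prime q).prime]
  constructor
  · rintro ⟨q', _, h⟩
    by_cases h1 : x q' = 1
    · rw [if_pos h1] at h
      exact absurd (Nat.dvd_one.mp h) (pf_prime q).one_lt.ne'
    · rw [if_neg h1, Nat.prime_dvd_prime_iff_eq (pf_prime q) (pf_prime q')] at h
      rw [Subtype.ext h]
      exact h1
  · intro h
    exact ⟨q, Finset.mem_univ _, by rw [if_neg h]⟩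

theorem bx_mul {m : ℕ} (hm : Squarefree m) (x : Pat m) : bx m x * bx' m x = m := by
  unfold bx bx'
  rw [← Finset.prod_mul_distrib]
  have h1 : ∀ q : PF m, ((if x q = 1 then (q : ℕ) else 1) * if x q = 1 then 1 else (q : ℕ)) =
      (q : ℕ) := by
    intro q
    split_ifs <;> simp
  rw [Finset.prod_congr rfl (fun q _ => h1 q)]
  rw [Finset.prod_coe_sort m.primeFactors (fun q => q)]
  exact Nat.prod_primeFactors_of_squarefree hm

theorem bx_pos {m : ℕ} (hm : Squarefree m) (x : Pat m) : 0 < bx m x := by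
  have h := bx_mul hm x
  rcases Nat.eq_zero_or_pos (bx m x) with h0 | h0
  · rw [h0, zero_mul] at h
    exact absurd h.symm hm.ne_zero
  · exact h0

theorem div_bx {m : ℕ} (hm : Squarefree m) (x : Pat m) : m / bx m x = bx' m x :=
  Nat.div_eq_of_eq_mul_right (bx_pos hm x) (bx_mul hm x).symm

theorem bx_dvd {m : ℕ} (hm : Squarefree m) (x : Pat m) : bx m x ∣ m :=
  ⟨_, (bx_mul hm x).symm⟩

theorem bx'_dvd {m : ℕ} (hm : Squarefree m) (x : Pat m) : bx' m x ∣ m :=
  ⟨_, by rw [mul_comm]; exact (bx_mul hm x).symm⟩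

theorem bx_of_dvd {m : ℕ} (hm : Squarefree m) {b : ℕ} (hb : b ∣ m) :
    bx m (fun q => if (q : ℕ) ∣ b then 1 else 0) = b := by
  unfold bx
  have h1 : ∀ q : PF m, (if (if (q : ℕ) ∣ b then (1 : ZMod 2) else 0) = 1 then (q : ℕ) else 1) =
      if (q : ℕ) ∣ b then (q : ℕ) else 1 := by
    intro q
    by_cases h : (q : ℕ) ∣ b <;> simp [h]
  rw [Finset.prod_congr rfl (fun q _ => h1 q)]
  rw [Finset.prod_coe_sort m.primeFactors (fun q => if q ∣ b then q else 1),
    ← Finset.prod_filter]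
  have hb0 : b ≠ 0 := ne_zero_of_dvd_ne_zero hm.ne_zero hb
  have h2 : m.primeFactors.filter (fun q => q ∣ b) = b.primeFactors := by
    ext p
    simp only [Finset.mem_filter, Nat.mem_primeFactors]
    constructor
    · rintro ⟨⟨h1, _, _⟩, h4⟩
      exact ⟨h1, h4, hb0⟩
    · rintro ⟨h1, h2, _⟩
      exact ⟨⟨h1, h2.trans hb, hm.ne_zero⟩, h2⟩
  rw [h2]
  exact Nat.prod_primeFactors_of_squarefree (hm.squarefree_of_dvd hb)

theorem pat_of_bx {m : ℕ} (x : Pat m) :
    (fun q : PF m => if (q : ℕ) ∣ bx m x then (1 : ZMod 2) else 0) = x := by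
  funext q
  simp only [dvd_bx x q]
  have h3 : ∀ a : ZMod 2, (if a = 1 then (1 : ZMod 2) else 0) = a := by decide
  exact h3 _

/-- the kernel has `2 ^ corank` elements -/
theorem two_pow_cork (m : ℕ) (w : Pat m) :
    2 ^ cork m w = (univ.filter fun x : Pat m => Matrix.mulVec (Mat m w) x = 0).card := by
  have h := Module.natCard_eq_pow_finrank (K := ZMod 2)
    (V := LinearMap.ker (Matrix.mulVecLin (Mat m w)))
  rw [Nat.card_zmod] at h
  unfold cork
  rw [← h, ← Fintype.card_subtype, ← Nat.card_eq_fintype_card]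
  exact Nat.card_congr (Equiv.subtypeEquivRight fun x => by
    rw [LinearMap.mem_ker, Matrix.mulVecLin_apply])

/-- constant part of row `q` -/
def Arow (m : ℕ) (x : Pat m) (q : PF m) : ZMod 2 :=
  (∑ r ∈ univ.erase q, bit ((r : ℕ) : ℤ) (q : ℕ)) * x q +
    ∑ r ∈ univ.erase q, bit ((r : ℕ) : ℤ) (q : ℕ) * x r

theorem mulVec_eq (m : ℕ) (w x : Pat m) (q : PF m) :
    Matrix.mulVec (Mat m w) x q = w q * x q + Arow m x q := by
  have h0 : Matrix.mulVec (Mat m w) x q = ∑ r, Mat m w q r * x r := rfl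
  unfold Arow
  rw [h0, ← Finset.add_sum_erase _ _ (Finset.mem_univ q)]
  have h1 : Mat m w q q = w q + ∑ r ∈ univ.erase q, bit ((r : ℕ) : ℤ) (q : ℕ) := by
    simp [Mat]
  rw [h1]
  have h2 : ∑ r ∈ univ.erase q, Mat m w q r * x r =
      ∑ r ∈ univ.erase q, bit ((r : ℕ) : ℤ) (q : ℕ) * x r := by
    apply Finset.sum_congr rfl
    intro r hr
    have : r ≠ q := Finset.ne_of_mem_erase hr
    simp [Mat, this]
  rw [h2]
  ring

theorem card_w (m : ℕ) (x : Pat m) :
    (univ.filter fun w : Pat m => Matrix.mulVec (Mat m w) x = 0).card =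
      ∏ q : PF m, (univ.filter fun t : ZMod 2 => t * x q + Arow m x q = 0).card := by
  rw [← Fintype.card_piFinset]
  congr 1
  ext w
  simp only [Finset.mem_filter, Finset.mem_univ, true_and, Fintype.mem_piFinset]
  rw [funext_iff]
  simp only [mulVec_eq, Pi.zero_apply]

theorem jacobi_bx {m : ℕ} (x : Pat m) (q : PF m) (hq : ¬ x q = 1) :
    jacobiSym (bx m x : ℕ) (q : ℕ) = sgn (Arow m x q) := by
  have hx0 : x q = 0 := by
    have h3 : ∀ a : ZMod 2, a ≠ 1 → a = 0 := by decide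
    exact h3 _ hq
  unfold Arow
  rw [hx0, mul_zero, zero_add, sgn_sum]
  let J : ℤ →* ℤ :=
    { toFun := fun a => jacobiSym a (q : ℕ)
      map_one' := jacobiSym.one_left _
      map_mul' := fun a b => jacobiSym.mul_left a b _ }
  have h1 : jacobiSym (bx m x : ℕ) (q : ℕ) =
      ∏ r : PF m, J (if x r = 1 then ((r : ℕ) : ℤ) else 1) := by
    rw [← map_prod]
    change jacobiSym _ _ = jacobiSym _ _
    congr 1
    unfold bx
    push_cast
    apply Finset.prod_congr rfl
    intro r _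
    split_ifs <;> simp
  rw [h1, ← Finset.mul_prod_erase _ _ (Finset.mem_univ q), if_neg hq, map_one, one_mul]
  apply Finset.prod_congr rfl
  intro r hr
  have hrq : r ≠ q := Finset.ne_of_mem_erase hr
  by_cases h : x r = 1
  · rw [if_pos h, h, mul_one, sgn_bit hrq]
    rfl
  · have h0 : x r = 0 := by
      have h3 : ∀ a : ZMod 2, a ≠ 1 → a = 0 := by decide
      exact h3 _ h
    rw [if_neg h, h0, mul_zero, map_one]
    rfl

theorem card_t {m : ℕ} (x : Pat m) (q : PF m) :
    ((univ.filter fun t : ZMod 2 => t * x q + Arow m x q = 0).card : ℤ) =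
      if x q = 1 then 1 else 1 + jacobiSym (bx m x : ℕ) (q : ℕ) := by
  have e1 : ∀ a : ZMod 2, (univ.filter fun t : ZMod 2 => t * 1 + a = 0).card = 1 := by decide
  have e0 : ∀ a : ZMod 2, ((univ.filter fun t : ZMod 2 => t * 0 + a = 0).card : ℤ) =
      1 + sgn a := by decide
  by_cases h : x q = 1
  · rw [if_pos h, h, e1]
    rfl
  · have h0 : x q = 0 := by
      have h3 : ∀ a : ZMod 2, a ≠ 1 → a = 0 := by decide
      exact h3 _ h
    rw [if_neg h, jacobi_bx x q h, ← e0, h0]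

/-- `c ↦ (b/c)` as an arithmetic function -/
def Jf (b : ℕ) : ArithmeticFunction ℤ := ⟨fun c => if c = 0 then 0 else jacobiSym b c, by simp⟩

theorem Jf_apply (b c : ℕ) (hc : c ≠ 0) : Jf b c = jacobiSym b c := by
  simp [Jf, hc]

theorem Jf_mult (b : ℕ) : (Jf b).IsMultiplicative := by
  refine ⟨by simp [Jf], ?_⟩
  intro c d _
  by_cases hc : c = 0
  · simp [Jf, hc]
  by_cases hd : d = 0
  · simp [Jf, hd]
  rw [Jf_apply _ _ hc, Jf_apply _ _ hd, Jf_apply _ _ (mul_ne_zero hc hd)]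
  have : NeZero c := ⟨hc⟩
  have : NeZero d := ⟨hd⟩
  exact jacobiSym.mul_right _ _ _

theorem sum_divisors {m : ℕ} (hm : Squarefree m) (x : Pat m) :
    ∑ c ∈ (m / bx m x).divisors, jacobiSym (bx m x : ℕ) c =
      ∏ q : PF m, if x q = 1 then (1 : ℤ) else 1 + jacobiSym (bx m x : ℕ) (q : ℕ) := by
  rw [div_bx hm x]
  have hs : Squarefree (bx' m x) := hm.squarefree_of_dvd (bx'_dvd hm x)
  have h1 : ∑ c ∈ (bx' m x).divisors, jacobiSym (bx m x : ℕ) c =
      ∑ c ∈ (bx' m x).divisors, Jf (bx m x) c := by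
    apply Finset.sum_congr rfl
    intro c hc
    rw [Jf_apply _ _ (Nat.pos_of_mem_divisors hc).ne']
  rw [h1, ← ArithmeticFunction.IsMultiplicative.prodPrimeFactors_one_add_of_squarefree
    (Jf_mult _) hs]
  have h2 : (bx' m x).primeFactors = m.primeFactors.filter (fun q => q ∣ bx' m x) := by
    ext p
    simp only [Finset.mem_filter, Nat.mem_primeFactors]
    constructor
    · rintro ⟨h1, h2, _⟩
      exact ⟨⟨h1, h2.trans (bx'_dvd hm x), hm.ne_zero⟩, h2⟩
    · rintro ⟨⟨h1, _, _⟩, h4⟩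
      exact ⟨h1, h4, hs.ne_zero⟩
  rw [h2, Finset.prod_filter,
    ← Finset.prod_coe_sort m.primeFactors (fun q => if q ∣ bx' m x then 1 + Jf (bx m x) q else 1)]
  apply Finset.prod_congr rfl
  intro q _
  by_cases h : x q = 1
  · rw [if_pos h, if_neg (fun h' => (dvd_bx' x q).mp h' h)]
  · rw [if_neg h, if_pos ((dvd_bx' x q).mpr h), Jf_apply _ _ (pf_prime q).ne_zero]

/-- M2b -/
theorem stmtId : StmtId := by
  intro m hm _
  have h1 : ∑ w : Pat m, (2 : ℤ) ^ cork m w =
      ∑ x : Pat m, ((univ.filter fun w : Pat m => Matrix.mulVec (Mat m w) x = 0).card : ℤ) := by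
    have h2 : ∀ w : Pat m, (2 : ℤ) ^ cork m w =
        ∑ x : Pat m, if Matrix.mulVec (Mat m w) x = 0 then (1 : ℤ) else 0 := by
      intro w
      have := two_pow_cork m w
      rw [Finset.card_filter] at this
      exact_mod_cast this
    rw [Finset.sum_congr rfl (fun w _ => h2 w), Finset.sum_comm]
    apply Finset.sum_congr rfl
    intro x _
    rw [Finset.card_filter]
    push_cast
    rfl
  rw [h1]
  have h3 : ∀ x : Pat m,
      ((univ.filter fun w : Pat m => Matrix.mulVec (Mat m w) x = 0).card : ℤ) =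
        ∑ c ∈ (m / bx m x).divisors, jacobiSym (bx m x : ℕ) c := by
    intro x
    rw [card_w, sum_divisors hm x]
    push_cast
    exact Finset.prod_congr rfl fun q _ => card_t x q
  rw [Finset.sum_congr rfl (fun x _ => h3 x)]
  refine Finset.sum_nbij' (fun x => bx m x) (fun b q => if (q : ℕ) ∣ b then 1 else 0) ?_ ?_ ?_ ?_ ?_
  · intro x _
    exact Nat.mem_divisors.mpr ⟨bx_dvd hm x, hm.ne_zero⟩
  · intro b _
    exact Finset.mem_univ _
  · intro x _
    exact pat_of_bx x
  · intro b hb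
    exact bx_of_dvd hm (Nat.dvd_of_mem_divisors hb)
  · intro x _
    rfl

end Vale.Agent.P017.R2.H916
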