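import Vale.Agent.P017.R2.H985.Defs2

/-!
# P017, module M7d: weighted count of the good primes for one `m`
-/

open Finset

namespace Vale.Agent.P017.R2.H916

open Vale.Agent.P017.R2.H985

/-- weight of the primes with pattern `φ` -/
noncomputable def Aw (m N r : ℕ) (φ : Pat m) : ℝ :=
  ∑ p ∈ (Pr N r).filter (fun p => sym m p = φ), Real.log p

theorem log_nonneg' (p : ℕ) : 0 ≤ Real.log (p : ℝ) := Real.log_natCast_nonneg p

theorem card_pat_pos (m : ℕ) : (0 : ℝ) < Fintype.card (Pat m) := by
  exact_mod_cast Fintype.card_pos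

theorem coprime30_odd {m : ℕ} (h : m.Coprime 30) : Odd m := by
  rcases Nat.even_or_odd m with h2 | h2
  · exfalso
    have h3 : 2 ∣ Nat.gcd m 30 := Nat.dvd_gcd h2.two_dvd (by norm_num)
    rw [h] at h3
    norm_num at h3
  · exact h2

theorem Aw_lower (hEq : StmtEq) {N₀ : ℕ} (hMain : ∀ N : ℕ, N₀ ≤ N → ∀ r : ℕ, r < 60 → r.Coprime 60 →
    (N : ℝ) / 20 ≤ Theta N r 1) {m N r : ℕ} (hm : Squarefree m) (h30 : m.Coprime 30)
    (hr : r < 60) (hr' : r.Coprime 60) (hN : N₀ ≤ N) (hmN : m ≤ N) (hE : ¬ Exc N r m)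
    (φ : Pat m) : (N : ℝ) / (40 * Fintype.card (Pat m)) ≤ Aw m N r φ := by
  have h1 := hEq m N r hm (coprime30_odd h30) hmN φ
  have h2 := hMain N hN r hr hr'
  unfold Exc at hE
  rw [not_lt] at hE
  have hset : (Ioc N (2 * N)).filter (fun p => p.Prime ∧ p % 60 = r ∧ sym m p = φ) =
      (Pr N r).filter (fun p => sym m p = φ) := by
    unfold Pr
    rw [Finset.filter_filter]
    apply Finset.filter_congr
    intro p _
    tauto
  rw [hset] at h1
  change _ ≤ (Fintype.card (Pat m) : ℝ) * Aw m N r φ at h1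
  have hC := card_pat_pos m
  rw [div_le_iff₀ (by positivity)]
  nlinarith

open Classical in
theorem good_le (hGood : StmtGood) {m s : ℕ} (w : Pat m) (h : cork m w = s) :
    (Fintype.card (Pat m) : ℝ) ^ s ≤
      4 ^ s * ((univ.filter fun φ : Fin s → Pat m => Good m w φ).card : ℝ) := by
  subst h
  have := hGood m w
  exact_mod_cast this

open Classical in
theorem sum_good (m N' r' s : ℕ) (φ : Fin s → Pat m) :
    ∑ p' ∈ (Pr N' r').filter (fun p' => Good m ((∑ i, φ i) + sym m p') φ), Real.log p' =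
      ∑ w ∈ univ.filter (fun w : Pat m => Good m w φ), Aw m N' r' (w - ∑ i, φ i) := by
  rw [← Finset.sum_fiberwise_of_maps_to (t := univ.filter (fun w : Pat m => Good m w φ))
    (g := fun p' => (∑ i, φ i) + sym m p')]
  · apply Finset.sum_congr rfl
    intro w hw
    unfold Aw
    apply Finset.sum_congr _ (fun _ _ => rfl)
    ext p'
    rw [Finset.mem_filter] at hw
    simp only [Finset.mem_filter]
    constructor
    · rintro ⟨⟨h1, _⟩, h3⟩
      exact ⟨h1, by rw [← h3]; abel⟩
    · rintro ⟨h1, h2⟩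
      have h3 : (∑ i, φ i) + sym m p' = w := by rw [h2]; abel
      exact ⟨⟨h1, by rw [h3]; exact hw.2⟩, h3⟩
  · intro p' hp'
    rw [Finset.mem_filter] at hp' ⊢
    exact ⟨Finset.mem_univ _, hp'.2⟩

open Classical in
theorem rhs_eq (m s : ℕ) (N : Fin s → ℕ) (N' r' : ℕ) :
    ∑ p ∈ Fintype.piFinset (fun i => Pr (N i) 1),
      ∑ p' ∈ (Pr N' r').filter (fun p' =>
        Good m ((∑ i, sym m (p i)) + sym m p') (fun i => sym m (p i))),
        (∏ i, Real.log (p i)) * Real.log p' =
    ∑ φ : Fin s → Pat m, (∏ i, Aw m (N i) 1 (φ i)) *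
      ∑ w ∈ univ.filter (fun w : Pat m => Good m w φ), Aw m N' r' (w - ∑ i, φ i) := by
  rw [← Finset.sum_fiberwise (Fintype.piFinset (fun i => Pr (N i) 1))
    (fun p : Fin s → ℕ => fun i => sym m (p i))]
  apply Finset.sum_congr rfl
  intro φ _
  have hfil : (Fintype.piFinset (fun i => Pr (N i) 1)).filter
      (fun p : Fin s → ℕ => (fun i => sym m (p i)) = φ) =
      Fintype.piFinset (fun i => (Pr (N i) 1).filter (fun p => sym m p = φ i)) := by
    ext p
    simp only [Finset.mem_filter, Fintype.mem_piFinset, funext_iff]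
    exact ⟨fun h i => ⟨h.1 i, fun q => h.2 i q⟩, fun h => ⟨fun i => (h i).1, fun i q => (h i).2 q⟩⟩
  have h1 : ∀ p ∈ (Fintype.piFinset (fun i => Pr (N i) 1)).filter
      (fun p : Fin s → ℕ => (fun i => sym m (p i)) = φ),
      ∑ p' ∈ (Pr N' r').filter (fun p' =>
        Good m ((∑ i, sym m (p i)) + sym m p') (fun i => sym m (p i))),
        (∏ i, Real.log (p i)) * Real.log p' =
      (∏ i, Real.log (p i)) * ∑ w ∈ univ.filter (fun w : Pat m => Good m w φ),
        Aw m N' r' (w - ∑ i, φ i) := by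
    intro p hp
    rw [Finset.mem_filter] at hp
    have h2 : (fun i => sym m (p i)) = φ := hp.2
    subst h2
    rw [← Finset.mul_sum, sum_good]
  rw [Finset.sum_congr rfl h1, ← Finset.sum_mul, hfil]
  congr 1
  unfold Aw
  rw [Finset.prod_univ_sum]

/-- M7d -/
theorem stmtCount (hEq : StmtEq) (hMain : StmtMain) (hGood : StmtGood) : StmtCount := by
  classical
  obtain ⟨N₀, hM⟩ := hMain
  refine ⟨N₀, ?_⟩
  intro m s N N' r' hm h30 hr hr' hN hN' hmN' hE'
  have hC := card_pat_pos m
  set C : ℝ := (Fintype.card (Pat m) : ℝ) with hCdef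
  have hA : ∀ i φ, (N i : ℝ) / (40 * C) ≤ Aw m (N i) 1 φ := fun i φ =>
    Aw_lower hEq hM hm h30 (by norm_num) (by norm_num) (hN i).1 (hN i).2.1 (hN i).2.2 φ
  have hA' : ∀ φ, (N' : ℝ) / (40 * C) ≤ Aw m N' r' φ := fun φ =>
    Aw_lower hEq hM hm h30 hr hr' hN' hmN' hE' φ
  have hmain : ∑ φ : Fin s → Pat m, (∏ i, (N i : ℝ) / (40 * C)) *
      (((univ.filter (fun w : Pat m => Good m w φ)).card : ℝ) * ((N' : ℝ) / (40 * C))) ≤
      ∑ φ : Fin s → Pat m, (∏ i, Aw m (N i) 1 (φ i)) *
        ∑ w ∈ univ.filter (fun w : Pat m => Good m w φ), Aw m N' r' (w - ∑ i, φ i) := by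
    apply Finset.sum_le_sum
    intro φ _
    apply mul_le_mul
    · apply Finset.prod_le_prod
      · intro i _; positivity
      · intro i _; exact hA i (φ i)
    · rw [← nsmul_eq_mul]
      exact Finset.card_nsmul_le_sum _ _ _ (fun w _ => hA' _)
    · positivity
    · apply Finset.prod_nonneg
      intro i _
      exact le_trans (by positivity) (hA i (φ i))
  have hcount : ((univ.filter fun w : Pat m => cork m w = s).card : ℝ) * (C ^ s / 4 ^ s) ≤
      ∑ φ : Fin s → Pat m, ((univ.filter (fun w : Pat m => Good m w φ)).card : ℝ) := by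
    have hswap : ∑ φ : Fin s → Pat m, ((univ.filter (fun w : Pat m => Good m w φ)).card : ℝ) =
        ∑ w : Pat m, ((univ.filter (fun φ : Fin s → Pat m => Good m w φ)).card : ℝ) := by
      simp only [Finset.card_filter]
      push_cast
      rw [Finset.sum_comm]
    rw [hswap]
    calc ((univ.filter fun w : Pat m => cork m w = s).card : ℝ) * (C ^ s / 4 ^ s)
        = ∑ _w ∈ univ.filter (fun w : Pat m => cork m w = s), (C ^ s / 4 ^ s) := by
          rw [Finset.sum_const, nsmul_eq_mul]
      _ ≤ ∑ w ∈ univ.filter (fun w : Pat m => cork m w = s),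
          ((univ.filter (fun φ : Fin s → Pat m => Good m w φ)).card : ℝ) := by
          apply Finset.sum_le_sum
          intro w hw
          rw [Finset.mem_filter] at hw
          have := good_le hGood w hw.2
          rw [div_le_iff₀ (by positivity), mul_comm]
          exact this
      _ ≤ ∑ w : Pat m, ((univ.filter (fun φ : Fin s → Pat m => Good m w φ)).card : ℝ) :=
          Finset.sum_le_sum_of_subset_of_nonneg (Finset.filter_subset _ _)
            (fun _ _ _ => by positivity)
  have hfin : ((univ.filter fun w : Pat m => cork m w = s).card : ℝ) / C *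
      ((∏ i, (N i : ℝ)) * N') / (4 ^ s * 40 ^ (s + 1)) ≤
      ∑ φ : Fin s → Pat m, (∏ i, (N i : ℝ) / (40 * C)) *
      (((univ.filter (fun w : Pat m => Good m w φ)).card : ℝ) * ((N' : ℝ) / (40 * C))) := by
    have h1 : ∑ φ : Fin s → Pat m, (∏ i, (N i : ℝ) / (40 * C)) *
      (((univ.filter (fun w : Pat m => Good m w φ)).card : ℝ) * ((N' : ℝ) / (40 * C))) =
        ((∏ i, (N i : ℝ) / (40 * C)) * ((N' : ℝ) / (40 * C))) *
        ∑ φ : Fin s → Pat m, ((univ.filter (fun w : Pat m => Good m w φ)).card : ℝ) := by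
      rw [Finset.mul_sum]
      apply Finset.sum_congr rfl
      intro φ _
      ring
    rw [h1]
    have h2 : ((univ.filter fun w : Pat m => cork m w = s).card : ℝ) / C *
      ((∏ i, (N i : ℝ)) * N') / (4 ^ s * 40 ^ (s + 1)) =
        ((∏ i, (N i : ℝ) / (40 * C)) * ((N' : ℝ) / (40 * C))) *
        (((univ.filter fun w : Pat m => cork m w = s).card : ℝ) * (C ^ s / 4 ^ s)) := by
      rw [Finset.prod_div_distrib, Finset.prod_const, Finset.card_univ, Fintype.card_fin]
      field_simp
      rw [mul_pow]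
      ring
    rw [h2]
    apply mul_le_mul_of_nonneg_left hcount
    apply mul_nonneg
    · apply Finset.prod_nonneg
      intro i _
      positivity
    · positivity
  have := hfin.trans hmain
  rw [← rhs_eq] at this
  convert this using 3

end Vale.Agent.P017.R2.H916
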